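import Vale.Agent.P335.Final
import Vale.Agent.P335.Gap
import Vale.Agent.P335.Quad
import Vale.Agent.P335.PairSlice
import Vale.Agent.P335.Conn
import Vale.Agent.P335.Compare
import Vale.Agent.P335.TriGraph
import Vale.Agent.P335.ThreeRow

/-!
P335: the switch chain mixes in polynomial time for every graphical degree sequence.
-/

theorem Vale.Agent.Results.P335.RapidMixing.result : Vale.Agent.P335.RapidMixing :=
  Vale.Agent.P335.rapidMixing_of
    (Vale.Agent.P335.Gap.gapThm_of
      (Vale.Agent.P335.triThm_of_threeRow Vale.Agent.P335.threeRowThm)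
      Vale.Agent.P335.Quad.quadThm Vale.Agent.P335.pairSliceThm Vale.Agent.P335.connThm)
    Vale.Agent.P335.compThm
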